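import Vale.Agent.P047CJ.Defs

namespace Vale.Agent.P047CJ

open Finset

section Prod

variable {n : ℕ}

lemma sum_prod (g : Fin n → Bool → ℝ) :
    ∑ x : Fin n → Bool, ∏ i, g i (x i) = ∏ i, (g i true + g i false) := by
  have h := Finset.prod_univ_sum (fun _ : Fin n => (Finset.univ : Finset Bool)) g
  rw [Fintype.piFinset_univ] at h
  rw [← h]
  refine Finset.prod_congr rfl fun i _ => ?_
  rw [Fintype.sum_bool]

/-- compatibility of one coordinate -/
def cmp (o : Option Bool) (b : Bool) : ℝ := if o = none ∨ o = some b then 1 else 0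

lemma cmp_cases (o : Option Bool) (b : Bool) :
    cmp o b = match o with
      | none => 1
      | some c => if c = b then 1 else 0 := by
  unfold cmp
  rcases o with _ | c
  · simp
  · simp

open Classical in
lemma ind_eq (ρ : Fin n → Option Bool) (x : Fin n → Bool) :
    (if InSub ρ x then (1 : ℝ) else 0) = ∏ i, cmp (ρ i) (x i) := by
  by_cases h : InSub ρ x
  · rw [if_pos h, Finset.prod_eq_one]
    intro i _
    unfold cmp
    rw [if_pos]
    rcases hρ : ρ i with _ | b
    · left; rfl
    · right; rw [h i b hρ]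
  · rw [if_neg h]
    have h' : ∃ i b, ρ i = some b ∧ x i ≠ b := by
      by_contra hc
      apply h
      intro i b hb
      by_contra hne
      exact hc ⟨i, b, hb, hne⟩
    obtain ⟨i, b, hb, hne⟩ := h'
    rw [Finset.prod_eq_zero (Finset.mem_univ i)]
    unfold cmp
    rw [if_neg]
    rintro (h1 | h1)
    · rw [hb] at h1; exact absurd h1 (by simp)
    · rw [hb] at h1
      exact hne (Option.some.inj h1).symm

/-- number of coordinates fixed to `b` -/
def cnt (ρ : Fin n → Option Bool) (b : Bool) : ℕ := (univ.filter fun i => ρ i = some b).card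

lemma codim_eq (ρ : Fin n → Option Bool) : codim ρ = cnt ρ true + cnt ρ false := by
  unfold codim cnt
  rw [← Finset.card_union_of_disjoint]
  · congr 1
    ext i
    simp only [Finset.mem_filter, Finset.mem_univ, true_and, Finset.mem_union]
    rcases ρ i with _ | b
    · simp
    · cases b <;> simp
  · rw [Finset.disjoint_filter]
    intro i _ h
    rw [h]
    simp

lemma codim_le (ρ : Fin n → Option Bool) : codim ρ ≤ n := by
  unfold codim
  exact (Finset.card_filter_le _ _).trans (by simp)

/-- product over the coordinates of a function of the fixed value -/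
lemma prod_opt (ρ : Fin n → Option Bool) (α β γ : ℝ) :
    ∏ i, (match ρ i with
      | none => γ
      | some true => α
      | some false => β)
      = α ^ cnt ρ true * β ^ cnt ρ false * γ ^ (n - codim ρ) := by
  have h1 : ∀ i, (match ρ i with
      | none => γ
      | some true => α
      | some false => β)
      = (if ρ i = some true then α else 1) * (if ρ i = some false then β else 1)
        * (if ρ i = none then γ else 1) := by
    intro i
    rcases ρ i with _ | b
    · simp
    · cases b <;> simp
  simp only [h1]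
  rw [Finset.prod_mul_distrib, Finset.prod_mul_distrib]
  have h2 : ∀ (p : Fin n → Prop) [DecidablePred p] (c : ℝ),
      ∏ i, (if p i then c else 1) = c ^ (univ.filter p).card := by
    intro p _ c
    rw [Finset.prod_ite, Finset.prod_const, Finset.prod_const_one, mul_one]
  rw [h2, h2, h2]
  have h3 : (univ.filter fun i => ρ i = none).card = n - codim ρ := by
    have h4 : (univ.filter fun i => ρ i = none) = (univ.filter fun i => ¬ (ρ i).isSome) := by
      ext i
      simp
    have h5 := Finset.card_filter_add_card_filter_not (s := (univ : Finset (Fin n)))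
      (fun i => (ρ i).isSome = true)
    rw [Finset.card_univ, Fintype.card_fin] at h5
    rw [h4]
    unfold codim
    omega
  rw [h3]
  rfl

/-- weighted number of points of a subcube -/
lemma sum_weight (ρ : Fin n → Option Bool) (t : ℝ) :
    ∑ x : Fin n → Bool, (∏ i, cmp (ρ i) (x i)) * ∏ i, (if x i then t else 1)
      = t ^ cnt ρ true * (1 + t) ^ (n - codim ρ) := by
  have h1 : ∀ x : Fin n → Bool, (∏ i, cmp (ρ i) (x i)) * ∏ i, (if x i then t else 1)
      = ∏ i, (fun i (b : Bool) => cmp (ρ i) b * (if b then t else 1)) i (x i) := by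
    intro x
    rw [← Finset.prod_mul_distrib]
  refine (Finset.sum_congr rfl (fun x _ => h1 x)).trans ((sum_prod
    (fun i (b : Bool) => cmp (ρ i) b * (if b then t else 1))).trans ?_)
  have h2 := prod_opt ρ t 1 (1 + t)
  rw [one_pow, mul_one] at h2
  rw [← h2]
  refine Finset.prod_congr rfl fun i _ => ?_
  rw [cmp_cases, cmp_cases]
  rcases ρ i with _ | b
  · simp; ring
  · cases b <;> simp

/-- sign of a fixed value -/
def sv (o : Option Bool) : ℝ := (if o = some true then 1 else 0) - (if o = some false then 1 else 0)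

lemma sum_sgn_one (ρ : Fin n → Option Bool) (i : Fin n) :
    ∑ x : Fin n → Bool, (∏ j, cmp (ρ j) (x j)) * sgn (x i) = sv (ρ i) * 2 ^ (n - codim ρ) := by
  have h1 : ∀ x : Fin n → Bool, (∏ j, cmp (ρ j) (x j)) * sgn (x i)
      = ∏ j, (fun j (b : Bool) => cmp (ρ j) b * (if j = i then sgn b else 1)) j (x j) := by
    intro x
    rw [Finset.prod_mul_distrib, Finset.prod_ite_eq' Finset.univ i (fun j => sgn (x j)),
      if_pos (Finset.mem_univ i)]
  refine (Finset.sum_congr rfl (fun x _ => h1 x)).trans ((sum_prod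
    (fun j (b : Bool) => cmp (ρ j) b * (if j = i then sgn b else 1))).trans ?_)
  have h2 : ∀ j, (cmp (ρ j) true * (if j = i then sgn true else 1)
      + cmp (ρ j) false * (if j = i then sgn false else 1))
      = (if j = i then sv (ρ j) else 1) * (cmp (ρ j) true + cmp (ρ j) false) := by
    intro j
    by_cases hj : j = i
    · simp only [hj, if_true]
      rw [cmp_cases, cmp_cases]
      unfold sv sgn
      rcases ρ i with _ | b
      · simp
      · cases b <;> simp
    · simp only [hj, if_false]
      ring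
  simp only [h2]
  rw [Finset.prod_mul_distrib, Finset.prod_ite_eq' Finset.univ i (fun j => sv (ρ j)),
    if_pos (Finset.mem_univ i)]
  congr 1
  have h3 := prod_opt ρ 1 1 2
  rw [one_pow, one_pow, one_mul, one_mul] at h3
  rw [← h3]
  refine Finset.prod_congr rfl fun j _ => ?_
  rw [cmp_cases, cmp_cases]
  rcases ρ j with _ | b
  · norm_num
  · cases b <;> simp

lemma sum_sv (ρ : Fin n → Option Bool) :
    ∑ i, sv (ρ i) = (cnt ρ true : ℝ) - cnt ρ false := by
  unfold sv cnt
  rw [Finset.sum_sub_distrib]
  simp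

lemma sum_sgn (ρ : Fin n → Option Bool) :
    ∑ x : Fin n → Bool, (∏ j, cmp (ρ j) (x j)) * ∑ i, sgn (x i)
      = ((cnt ρ true : ℝ) - cnt ρ false) * 2 ^ (n - codim ρ) := by
  rw [← sum_sv, Finset.sum_mul]
  simp only [Finset.mul_sum]
  rw [Finset.sum_comm]
  exact Finset.sum_congr rfl fun i _ => sum_sgn_one ρ i

end Prod

section Binom

/-- first moment of the binomial coefficients -/
lemma sum_choose_center (N : ℕ) :
    ∑ k ∈ Finset.range (N + 1), (N.choose k : ℝ) * (2 * (k : ℝ) - N) = 0 := by
  have h := Finset.sum_range_reflect (fun k => (N.choose k : ℝ) * (2 * (k : ℝ) - N)) (N + 1)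
  have h2 : ∑ k ∈ Finset.range (N + 1), (N.choose (N + 1 - 1 - k) : ℝ)
      * (2 * ((N + 1 - 1 - k : ℕ) : ℝ) - N)
      = - ∑ k ∈ Finset.range (N + 1), (N.choose k : ℝ) * (2 * (k : ℝ) - N) := by
    rw [← Finset.sum_neg_distrib]
    refine Finset.sum_congr rfl fun k hk => ?_
    have hk' : k ≤ N := Nat.lt_succ_iff.1 (Finset.mem_range.1 hk)
    rw [Nat.add_sub_cancel, Nat.choose_symm hk', Nat.cast_sub hk']
    ring
  rw [h2] at h
  linarith

lemma abs_le_choose_sum (N : ℕ) (x : ℝ) :
    |x| * 2 ^ N ≤ ∑ k ∈ Finset.range (N + 1), (N.choose k : ℝ) * |x + (2 * (k : ℝ) - N)| := by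
  have h1 : ∑ k ∈ Finset.range (N + 1), (N.choose k : ℝ) = 2 ^ N := by
    exact_mod_cast Nat.sum_range_choose N
  have h2 : x * 2 ^ N = ∑ k ∈ Finset.range (N + 1), (N.choose k : ℝ) * (x + (2 * (k : ℝ) - N)) := by
    have h3 : ∀ k : ℕ, (N.choose k : ℝ) * (x + (2 * (k : ℝ) - N))
        = (N.choose k : ℝ) * x + (N.choose k : ℝ) * (2 * (k : ℝ) - N) := fun k => by ring
    simp only [h3]
    rw [Finset.sum_add_distrib, sum_choose_center N, ← Finset.sum_mul, h1]
    ring
  calc |x| * 2 ^ N = |x * 2 ^ N| := by
        rw [abs_mul, abs_of_nonneg (by positivity : (0 : ℝ) ≤ 2 ^ N)]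
    _ ≤ ∑ k ∈ Finset.range (N + 1), |(N.choose k : ℝ) * (x + (2 * (k : ℝ) - N))| := by
        rw [h2]
        exact Finset.abs_sum_le_sum_abs _ _
    _ = _ := by
        refine Finset.sum_congr rfl fun k _ => ?_
        rw [abs_mul, abs_of_nonneg (Nat.cast_nonneg _)]

/-- coefficient of `t^j` in `t^p (1+t)^N` -/
def cf (N p j : ℕ) : ℝ := if p ≤ j then (N.choose (j - p) : ℝ) else 0

lemma cf_nonneg (N p j : ℕ) : 0 ≤ cf N p j := by
  unfold cf
  split_ifs
  · exact Nat.cast_nonneg _
  · exact le_rfl

/-- reindexing -/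
lemma sum_cf (N p d : ℕ) (h : p + N ≤ d) (F : ℕ → ℝ) :
    ∑ j ∈ Finset.range (d + 1), cf N p j * F j
      = ∑ k ∈ Finset.range (N + 1), (N.choose k : ℝ) * F (p + k) := by
  have h1 : ∑ j ∈ Finset.range (d + 1), cf N p j * F j
      = ∑ j ∈ (Finset.range (N + 1)).map (addLeftEmbedding p), cf N p j * F j := by
    symm
    apply Finset.sum_subset
    · intro j hj
      obtain ⟨k, hk, rfl⟩ := Finset.mem_map.1 hj
      have := Finset.mem_range.1 hk
      rw [Finset.mem_range]
      simp only [addLeftEmbedding_apply]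
      omega
    · intro j _ hj
      unfold cf
      split_ifs with h2
      · have h3 : N < j - p := by
          by_contra h4
          apply hj
          rw [Finset.mem_map]
          refine ⟨j - p, Finset.mem_range.2 (by omega), ?_⟩
          simp only [addLeftEmbedding_apply]
          omega
        rw [Nat.choose_eq_zero_of_lt h3]
        simp
      · ring
  rw [h1, Finset.sum_map]
  refine Finset.sum_congr rfl fun k _ => ?_
  simp only [addLeftEmbedding_apply]
  unfold cf
  rw [if_pos (by omega), Nat.add_sub_cancel_left]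

end Binom

section Majority

variable {d : ℕ}

lemma card_true (j : ℕ) :
    (univ.filter fun y : Fin d → Bool => (univ.filter fun i => y i = true).card = j).card
      = d.choose j := by
  have h : (univ.filter fun y : Fin d → Bool => (univ.filter fun i => y i = true).card = j).card
      = (Finset.powersetCard j (univ : Finset (Fin d))).card := by
    refine Finset.card_nbij' (fun y => univ.filter fun i => y i = true)
      (fun s => fun i => decide (i ∈ s)) ?_ ?_ ?_ ?_
    · intro y hy
      have hy' := (Finset.mem_filter.1 (Finset.mem_coe.1 hy)).2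
      exact Finset.mem_coe.2 (Finset.mem_powersetCard.2 ⟨Finset.subset_univ _, hy'⟩)
    · intro s hs
      have hs' := Finset.mem_powersetCard.1 (Finset.mem_coe.1 hs)
      refine Finset.mem_coe.2 (Finset.mem_filter.2 ⟨Finset.mem_univ _, ?_⟩)
      rw [← hs'.2]
      congr 1
      ext i
      simp
    · intro y _
      ext i
      simp
    · intro s _
      ext i
      simp
  rw [h, Finset.card_powersetCard, Finset.card_univ, Fintype.card_fin]

lemma sum_sgn_eq (y : Fin d → Bool) :
    ∑ i, sgn (y i) = 2 * ((univ.filter fun i => y i = true).card : ℝ) - d := by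
  have h1 : ∀ i, sgn (y i) = 2 * (if y i = true then 1 else 0) - 1 := by
    intro i
    unfold sgn
    cases y i <;> norm_num
  simp only [h1]
  rw [Finset.sum_sub_distrib, ← Finset.mul_sum]
  simp

lemma Bd_eq (d : ℕ) :
    Bd d = (∑ j ∈ Finset.range (d + 1), (d.choose j : ℝ) * |2 * (j : ℝ) - d|) / 2 ^ d := by
  unfold Bd
  congr 1
  simp only [sum_sgn_eq]
  have hmaps : ∀ y ∈ (univ : Finset (Fin d → Bool)),
      (univ.filter fun i => y i = true).card ∈ Finset.range (d + 1) := by
    intro y _
    rw [Finset.mem_range]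
    have := Finset.card_filter_le (univ : Finset (Fin d)) (fun i => y i = true)
    rw [Finset.card_univ, Fintype.card_fin] at this
    omega
  rw [← Finset.sum_fiberwise_of_maps_to hmaps]
  refine Finset.sum_congr rfl fun j _ => ?_
  rw [← card_true (d := d) j, ← nsmul_eq_mul, ← Finset.sum_const]
  refine Finset.sum_congr rfl fun y hy => ?_
  rw [(Finset.mem_filter.1 hy).2]

lemma sum_sgn_mul (i j : Fin d) :
    ∑ y : Fin d → Bool, sgn (y i) * sgn (y j) = if i = j then 2 ^ d else 0 := by
  by_cases hij : i = j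
  · subst hij
    rw [if_pos rfl]
    have h1 : ∀ y : Fin d → Bool, sgn (y i) * sgn (y i) = 1 := by
      intro y
      unfold sgn
      cases y i <;> norm_num
    simp [h1]
  · rw [if_neg hij]
    have h1 : ∀ x : Fin d → Bool, sgn (x i) * sgn (x j)
        = ∏ k, (fun k (b : Bool) => (if k = i then sgn b else 1) * (if k = j then sgn b else 1))
          k (x k) := by
      intro x
      rw [Finset.prod_mul_distrib, Finset.prod_ite_eq' Finset.univ i (fun k => sgn (x k)),
        Finset.prod_ite_eq' Finset.univ j (fun k => sgn (x k)),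
        if_pos (Finset.mem_univ i), if_pos (Finset.mem_univ j)]
    refine (Finset.sum_congr rfl (fun x _ => h1 x)).trans ((sum_prod
      (fun k (b : Bool) => (if k = i then sgn b else 1) * (if k = j then sgn b else 1))).trans ?_)
    rw [Finset.prod_eq_zero (Finset.mem_univ i)]
    simp [sgn, hij]

lemma Bd_le_sqrt (d : ℕ) : Bd d ≤ √d := by
  apply Real.le_sqrt_of_sq_le
  unfold Bd
  have h1 : (∑ y : Fin d → Bool, |∑ j, sgn (y j)|) ^ 2
      ≤ 2 ^ d * ∑ y : Fin d → Bool, (∑ j, sgn (y j)) ^ 2 := by
    have h := sq_sum_le_card_mul_sum_sq (s := (univ : Finset (Fin d → Bool)))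
      (f := fun y => |∑ j, sgn (y j)|)
    simp only [sq_abs] at h
    have hc : ((univ : Finset (Fin d → Bool)).card : ℝ) = 2 ^ d := by
      simp
    rwa [hc] at h
  have h2 : ∑ y : Fin d → Bool, (∑ j, sgn (y j)) ^ 2 = d * 2 ^ d := by
    have h3 : ∀ y : Fin d → Bool, (∑ j, sgn (y j)) ^ 2 = ∑ i, ∑ j, sgn (y i) * sgn (y j) := by
      intro y
      rw [sq, Finset.sum_mul_sum]
    simp only [h3]
    rw [Finset.sum_comm]
    have h4 : ∀ i : Fin d, ∑ y : Fin d → Bool, ∑ j, sgn (y i) * sgn (y j) = 2 ^ d := by
      intro i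
      rw [Finset.sum_comm]
      simp only [sum_sgn_mul]
      simp
    simp only [h4]
    simp
  rw [div_pow, div_le_iff₀ (by positivity)]
  rw [h2] at h1
  calc (∑ y : Fin d → Bool, |∑ j, sgn (y j)|) ^ 2 ≤ 2 ^ d * (d * 2 ^ d) := h1
    _ = d * (2 ^ d) ^ 2 := by ring

end Majority

section Main

variable {n d : ℕ}

/-- partition identity: total weight of each level -/
lemma level_weight {w : (Fin n → Option Bool) → ℝ} (hwd : ∀ ρ, d < codim ρ → w ρ = 0)
    (hw : ∀ x : Fin n → Bool, ∑ ρ, w ρ * ∏ i, cmp (ρ i) (x i) = 1) {j : ℕ} (hj : j ≤ d) :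
    ∑ ρ, w ρ * cf (d - codim ρ) (cnt ρ true) j = d.choose j := by
  -- the identity for positive `t`
  have hB : ∀ t : ℝ, 0 < t →
      ∑ ρ, w ρ * (t ^ cnt ρ true * (1 + t) ^ (d - codim ρ)) = (1 + t) ^ d := by
    intro t ht
    have h1 : ∑ ρ, w ρ * (t ^ cnt ρ true * (1 + t) ^ (n - codim ρ)) = (1 + t) ^ n := by
      have h2 : ∑ x : Fin n → Bool, ∏ i, (if x i then t else 1) = (1 + t) ^ n := by
        have h := sum_prod (n := n) (fun _ (b : Bool) => if b then t else 1)
        simp only [if_true, Bool.false_eq_true, if_false] at h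
        rw [h, Finset.prod_const, Finset.card_univ, Fintype.card_fin, add_comm]
      rw [← h2]
      calc ∑ ρ, w ρ * (t ^ cnt ρ true * (1 + t) ^ (n - codim ρ))
          = ∑ ρ, ∑ x : Fin n → Bool, w ρ * (∏ i, cmp (ρ i) (x i))
              * ∏ i, (if x i then t else 1) := by
            refine Finset.sum_congr rfl fun ρ _ => ?_
            rw [← sum_weight, Finset.mul_sum]
            exact Finset.sum_congr rfl fun x _ => by ring
        _ = ∑ x : Fin n → Bool, (∑ ρ, w ρ * (∏ i, cmp (ρ i) (x i)))
              * ∏ i, (if x i then t else 1) := by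
            rw [Finset.sum_comm]
            exact Finset.sum_congr rfl fun x _ => by rw [Finset.sum_mul]
        _ = _ := by
            refine Finset.sum_congr rfl fun x _ => ?_
            rw [hw x, one_mul]
    have hpos : (0 : ℝ) < (1 + t) ^ n := by positivity
    have h3 : ∀ ρ, w ρ * (t ^ cnt ρ true * (1 + t) ^ (d - codim ρ))
        = w ρ * (t ^ cnt ρ true * (1 + t) ^ (n - codim ρ)) * ((1 + t) ^ d / (1 + t) ^ n) := by
      intro ρ
      by_cases h4 : d < codim ρ
      · rw [hwd ρ h4]; ring
      · have h5 : codim ρ ≤ d := not_lt.1 h4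
        have h6 := codim_le ρ
        have h7 : (1 + t) ^ d * (1 + t) ^ (n - codim ρ) = (1 + t) ^ n * (1 + t) ^ (d - codim ρ) := by
          rw [← pow_add, ← pow_add]
          congr 1
          omega
        have h8 : (1 + t) ^ (d - codim ρ) = (1 + t) ^ (n - codim ρ) * ((1 + t) ^ d / (1 + t) ^ n) := by
          rw [mul_div_assoc', eq_div_iff hpos.ne']
          linarith
        rw [h8]
        ring
    rw [Finset.sum_congr rfl (fun ρ _ => h3 ρ), ← Finset.sum_mul, h1]
    field_simp
  -- polynomials
  set P : Polynomial ℝ := ∑ k ∈ Finset.range (d + 1),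
    Polynomial.monomial k (∑ ρ, w ρ * cf (d - codim ρ) (cnt ρ true) k) with hP
  have hPeval : ∀ t : ℝ, P.eval t = ∑ ρ, w ρ * (t ^ cnt ρ true * (1 + t) ^ (d - codim ρ)) := by
    intro t
    rw [hP, Polynomial.eval_finset_sum]
    simp only [Polynomial.eval_monomial, Finset.sum_mul]
    rw [Finset.sum_comm]
    refine Finset.sum_congr rfl fun ρ _ => ?_
    by_cases h4 : d < codim ρ
    · rw [hwd ρ h4]; simp
    · have h5 : codim ρ ≤ d := not_lt.1 h4
      have h6 := codim_eq ρ
      have h7 := sum_cf (d - codim ρ) (cnt ρ true) d (by omega) (fun k => t ^ k)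
      calc ∑ k ∈ Finset.range (d + 1), w ρ * cf (d - codim ρ) (cnt ρ true) k * t ^ k
          = w ρ * ∑ k ∈ Finset.range (d + 1), cf (d - codim ρ) (cnt ρ true) k * t ^ k := by
            rw [Finset.mul_sum]
            exact Finset.sum_congr rfl fun k _ => by ring
        _ = _ := by
            rw [h7]
            congr 1
            have h8 := (Commute.one_left t).add_pow (d - codim ρ)
            rw [add_comm 1 t, add_pow]
            rw [Finset.mul_sum]
            refine Finset.sum_congr rfl fun k _ => ?_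
            rw [one_pow, pow_add]
            ring
  have hPQ : P = (1 + Polynomial.X) ^ d := by
    apply Polynomial.eq_of_infinite_eval_eq
    apply Set.Infinite.mono _ (Set.Ioi_infinite (0 : ℝ))
    intro t ht
    have ht' : 0 < t := ht
    change P.eval t = ((1 + Polynomial.X : Polynomial ℝ) ^ d).eval t
    rw [hPeval, hB t ht']
    simp
  have h1 : P.coeff j = ∑ ρ, w ρ * cf (d - codim ρ) (cnt ρ true) j := by
    rw [hP, Polynomial.finset_sum_coeff]
    simp only [Polynomial.coeff_monomial]
    rw [Finset.sum_ite_eq' (Finset.range (d + 1)) j, if_pos (Finset.mem_range.2 (by omega))]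
  rw [← h1, hPQ, Polynomial.coeff_one_add_X_pow]

/-- the square root bound -/
theorem main (f : (Fin n → Bool) → ℝ) (h1 : IsConicalJunta d (fun x => (1 + f x) / 2))
    (h2 : IsConicalJunta d (fun x => (1 - f x) / 2)) : ∑ i, coef f i ≤ Bd d := by
  obtain ⟨a, ha0, had, ha⟩ := h1
  obtain ⟨b, hb0, hbd, hb⟩ := h2
  simp only [ind_eq] at ha hb
  have hw : ∀ x : Fin n → Bool, ∑ ρ, (a ρ + b ρ) * ∏ i, cmp (ρ i) (x i) = 1 := by
    intro x
    simp only [add_mul, Finset.sum_add_distrib]
    rw [← ha x, ← hb x]
    ring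
  have hwd : ∀ ρ, d < codim ρ → a ρ + b ρ = 0 := by
    intro ρ h
    rw [had ρ h, hbd ρ h, add_zero]
  have hf : ∀ x : Fin n → Bool, f x = ∑ ρ, (a ρ - b ρ) * ∏ i, cmp (ρ i) (x i) := by
    intro x
    simp only [sub_mul, Finset.sum_sub_distrib]
    rw [← ha x, ← hb x]
    ring
  have hpow : ∀ ρ : Fin n → Option Bool, codim ρ ≤ d →
      (2 : ℝ) ^ (n - codim ρ) / 2 ^ n = 2 ^ (d - codim ρ) / 2 ^ d := by
    intro ρ h
    have h3 := codim_le ρ
    rw [div_eq_div_iff (by positivity) (by positivity), ← pow_add, ← pow_add]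
    congr 1
    omega
  calc ∑ i, coef f i
      = (∑ x : Fin n → Bool, f x * ∑ i, sgn (x i)) / 2 ^ n := by
        unfold coef
        rw [← Finset.sum_div]
        congr 1
        rw [Finset.sum_comm]
        exact Finset.sum_congr rfl fun x _ => by rw [Finset.mul_sum]
    _ = (∑ ρ, (a ρ - b ρ) * (((cnt ρ true : ℝ) - cnt ρ false) * 2 ^ (n - codim ρ))) / 2 ^ n := by
        congr 1
        calc ∑ x : Fin n → Bool, f x * ∑ i, sgn (x i)
            = ∑ x : Fin n → Bool, ∑ ρ, (a ρ - b ρ) * ((∏ i, cmp (ρ i) (x i))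
                * ∑ i, sgn (x i)) := by
              refine Finset.sum_congr rfl fun x _ => ?_
              rw [hf x, Finset.sum_mul]
              exact Finset.sum_congr rfl fun ρ _ => by ring
          _ = _ := by
              rw [Finset.sum_comm]
              refine Finset.sum_congr rfl fun ρ _ => ?_
              rw [← sum_sgn, Finset.mul_sum]
    _ ≤ ∑ ρ, (a ρ + b ρ) * (∑ j ∈ Finset.range (d + 1),
          cf (d - codim ρ) (cnt ρ true) j * |2 * (j : ℝ) - d|) / 2 ^ d := by
        rw [Finset.sum_div]
        refine Finset.sum_le_sum fun ρ _ => ?_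
        by_cases h4 : d < codim ρ
        · rw [had ρ h4, hbd ρ h4]
          simp
        · have h5 : codim ρ ≤ d := not_lt.1 h4
          have h6 := codim_eq ρ
          have h7 := sum_cf (d - codim ρ) (cnt ρ true) d (by omega) (fun k => |2 * (k : ℝ) - d|)
          rw [h7]
          have h8 := abs_le_choose_sum (d - codim ρ) ((cnt ρ true : ℝ) - cnt ρ false)
          have h9 : ∀ k : ℕ, ((cnt ρ true : ℝ) - cnt ρ false)
              + (2 * (k : ℝ) - ((d - codim ρ : ℕ) : ℝ))
              = 2 * ((cnt ρ true + k : ℕ) : ℝ) - d := by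
            intro k
            rw [Nat.cast_sub h5, h6]
            push_cast
            ring
          simp only [h9] at h8
          have h10 : (a ρ - b ρ) * ((cnt ρ true : ℝ) - cnt ρ false)
              ≤ (a ρ + b ρ) * |(cnt ρ true : ℝ) - cnt ρ false| := by
            have h11 : |a ρ - b ρ| ≤ a ρ + b ρ := by
              rw [abs_le]
              constructor
              · linarith [ha0 ρ, hb0 ρ]
              · linarith [ha0 ρ, hb0 ρ]
            calc (a ρ - b ρ) * ((cnt ρ true : ℝ) - cnt ρ false)
                ≤ |(a ρ - b ρ) * ((cnt ρ true : ℝ) - cnt ρ false)| := le_abs_self _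
              _ = |a ρ - b ρ| * |(cnt ρ true : ℝ) - cnt ρ false| := abs_mul _ _
              _ ≤ _ := mul_le_mul_of_nonneg_right h11 (abs_nonneg _)
          have hab : 0 ≤ a ρ + b ρ := add_nonneg (ha0 ρ) (hb0 ρ)
          calc (a ρ - b ρ) * (((cnt ρ true : ℝ) - cnt ρ false) * 2 ^ (n - codim ρ)) / 2 ^ n
              = (a ρ - b ρ) * ((cnt ρ true : ℝ) - cnt ρ false)
                * (2 ^ (n - codim ρ) / 2 ^ n) := by ring
            _ = (a ρ - b ρ) * ((cnt ρ true : ℝ) - cnt ρ false)
                * (2 ^ (d - codim ρ) / 2 ^ d) := by rw [hpow ρ h5]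
            _ ≤ (a ρ + b ρ) * |(cnt ρ true : ℝ) - cnt ρ false|
                * (2 ^ (d - codim ρ) / 2 ^ d) :=
                mul_le_mul_of_nonneg_right h10 (by positivity)
            _ = (a ρ + b ρ) * (|(cnt ρ true : ℝ) - cnt ρ false| * 2 ^ (d - codim ρ)) / 2 ^ d := by
                ring
            _ ≤ _ := by
                apply div_le_div_of_nonneg_right _ (by positivity)
                exact mul_le_mul_of_nonneg_left h8 hab
    _ = Bd d := by
        rw [Bd_eq, ← Finset.sum_div]
        congr 1
        calc ∑ ρ, (a ρ + b ρ) * (∑ j ∈ Finset.range (d + 1),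
              cf (d - codim ρ) (cnt ρ true) j * |2 * (j : ℝ) - d|)
            = ∑ j ∈ Finset.range (d + 1), (∑ ρ, (a ρ + b ρ)
                * cf (d - codim ρ) (cnt ρ true) j) * |2 * (j : ℝ) - d| := by
              simp only [Finset.mul_sum, Finset.sum_mul]
              rw [Finset.sum_comm]
              exact Finset.sum_congr rfl fun j _ => Finset.sum_congr rfl fun ρ _ => by ring
          _ = _ := by
              refine Finset.sum_congr rfl fun j hj => ?_
              rw [level_weight hwd hw (Nat.lt_succ_iff.1 (Finset.mem_range.1 hj))]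

end Main

end Vale.Agent.P047CJ
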