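import Mathlib

/-!
P047: definitions.  The cube is `Fin n → Bool` with `true = +1` and `false = -1`.
-/

namespace Vale.Agent.P047CJ

open Finset

/-- the real value of a coordinate -/
def sgn (b : Bool) : ℝ := if b then 1 else -1

/-- degree one Fourier coefficient `E[f(X) X_i]` -/
noncomputable def coef {n : ℕ} (f : (Fin n → Bool) → ℝ) (i : Fin n) : ℝ :=
  (∑ x : Fin n → Bool, f x * sgn (x i)) / 2 ^ n

/-- `B_d = E |X_1 + ... + X_d|` -/
noncomputable def Bd (d : ℕ) : ℝ := (∑ y : Fin d → Bool, |∑ j, sgn (y j)|) / 2 ^ d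

/-- The subcube given by a partial assignment `ρ` contains `x`: `x i = b` whenever `ρ i = some b`. -/
def InSub {n : ℕ} (ρ : Fin n → Option Bool) (x : Fin n → Bool) : Prop :=
  ∀ i b, ρ i = some b → x i = b

/-- number of fixed coordinates of a partial assignment (codimension of the subcube) -/
def codim {n : ℕ} (ρ : Fin n → Option Bool) : ℕ := (univ.filter fun i => (ρ i).isSome).card

open Classical in
/-- `h` is a conical junta of degree at most `d`: a nonnegative combination of indicators of
subcubes of codimension at most `d`. -/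
def IsConicalJunta {n : ℕ} (d : ℕ) (h : (Fin n → Bool) → ℝ) : Prop :=
  ∃ a : (Fin n → Option Bool) → ℝ, (∀ ρ, 0 ≤ a ρ) ∧ (∀ ρ, d < codim ρ → a ρ = 0) ∧
    ∀ x, h x = ∑ ρ, a ρ * (if InSub ρ x then 1 else 0)

end Vale.Agent.P047CJ
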